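import Mathlib

/-! Cyclic algebras `⊕_{i < M} R Y^i` with `Y r = σ r Y` and `Y ^ M = y`. -/

noncomputable section

open Module Finset

namespace P199K.SymCon

/-- An automorphism of order dividing `M` and a fixed central element. -/
structure CycData (R : Type) [Ring R] (M : ℕ) where
  σ : R →+* R
  y : R
  y_comm : ∀ r, y * r = r * y
  σ_y : σ y = y
  σ_pow : ∀ r, σ^[M] r = r

variable {R : Type} [Ring R] {M : ℕ} [NeZero M]

/-- The cyclic algebra. -/
def Cyc (_D : CycData R M) : Type := ZMod M → R

namespace Cyc

variable {D : CycData R M}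

instance : AddCommGroup (Cyc D) := inferInstanceAs (AddCommGroup (ZMod M → R))

@[ext] theorem ext {a b : Cyc D} (h : ∀ i, a i = b i) : a = b := funext h

@[simp] theorem zero_apply (i : ZMod M) : (0 : Cyc D) i = 0 := rfl
@[simp] theorem add_apply (a b : Cyc D) (i : ZMod M) : (a + b) i = a i + b i := rfl

/-- The carry of adding two residues. -/
def carry (i j : ZMod M) : ℕ := (i.val + j.val) / M

theorem carry_zero_left (i : ZMod M) : carry 0 i = 0 := by
  simp [carry, Nat.div_eq_of_lt i.val_lt]

theorem carry_zero_right (i : ZMod M) : carry i 0 = 0 := by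
  simp [carry, Nat.div_eq_of_lt i.val_lt]

theorem val_add_carry (i j : ZMod M) : (i + j).val + M * carry i j = i.val + j.val := by
  rw [ZMod.val_add, carry, Nat.mod_add_div]

theorem carry_assoc (i j l : ZMod M) :
    carry i j + carry (i + j) l = carry j l + carry i (j + l) := by
  have h1 := val_add_carry i j
  have h2 := val_add_carry (i + j) l
  have h3 := val_add_carry j l
  have h4 := val_add_carry i (j + l)
  rw [add_assoc i j l] at h2
  have : M * (carry i j + carry (i + j) l) = M * (carry j l + carry i (j + l)) := by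
    rw [mul_add, mul_add]; omega
  exact Nat.eq_of_mul_eq_mul_left (Nat.pos_of_ne_zero (NeZero.ne M)) this

variable (D)

theorem σ_iterate_mul (n : ℕ) (a b : R) : D.σ^[n] (a * b) = D.σ^[n] a * D.σ^[n] b := by
  induction n with
  | zero => rfl
  | succ n ih => simp only [Function.iterate_succ_apply', ih, map_mul]

theorem σ_iterate_sum (n : ℕ) {ι : Type} (s : Finset ι) (f : ι → R) :
    D.σ^[n] (∑ i ∈ s, f i) = ∑ i ∈ s, D.σ^[n] (f i) := by
  induction n with
  | zero => rfl
  | succ n ih => simp only [Function.iterate_succ_apply', ih, map_sum]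

theorem σ_iterate_zero (n : ℕ) : D.σ^[n] 0 = 0 := by
  induction n with
  | zero => rfl
  | succ n ih => rw [Function.iterate_succ_apply', ih, map_zero]

theorem σ_iterate_one (n : ℕ) : D.σ^[n] 1 = 1 := by
  induction n with
  | zero => rfl
  | succ n ih => rw [Function.iterate_succ_apply', ih, map_one]

theorem σ_iterate_y (n c : ℕ) : D.σ^[n] (D.y ^ c) = D.y ^ c := by
  induction n with
  | zero => rfl
  | succ n ih => rw [Function.iterate_succ_apply', ih, map_pow, D.σ_y]

theorem y_pow_comm (c : ℕ) (r : R) : D.y ^ c * r = r * D.y ^ c :=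
  ((Commute.pow_left (D.y_comm r) c)).eq

theorem σ_iterate_add (i j : ZMod M) (r : R) :
    D.σ^[i.val] (D.σ^[j.val] r) = D.σ^[(i + j).val] r := by
  rw [← Function.iterate_add_apply, ← val_add_carry i j, Function.iterate_add_apply]
  congr 1
  rw [Function.iterate_mul]
  exact Function.iterate_fixed (D.σ_pow r) _

variable {D}

instance : Mul (Cyc D) :=
  ⟨fun a b l => ∑ i, a i * D.σ^[i.val] (b (l - i)) * D.y ^ carry i (l - i)⟩

theorem mul_apply (a b : Cyc D) (l : ZMod M) :
    (a * b) l = ∑ i, a i * D.σ^[i.val] (b (l - i)) * D.y ^ carry i (l - i) := rfl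

/-- The element `r Y ^ i`. -/
def e (D : CycData R M) (i : ZMod M) (r : R) : Cyc D := fun j => if j = i then r else 0

@[simp] theorem e_apply (i j : ZMod M) (r : R) : e D i r j = if j = i then r else 0 := rfl

instance : One (Cyc D) := ⟨e D 0 1⟩

theorem one_def : (1 : Cyc D) = e D 0 1 := rfl

theorem mul_assoc' (a b c : Cyc D) : a * b * c = a * (b * c) := by
  ext h
  simp only [mul_apply, Finset.sum_mul, σ_iterate_sum, Finset.mul_sum, σ_iterate_mul, σ_iterate_y]
  rw [Finset.sum_comm]
  refine Finset.sum_congr rfl fun i _ => ?_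
  rw [← Equiv.sum_comp (Equiv.addLeft i)]
  refine Finset.sum_congr rfl fun j _ => ?_
  simp only [Equiv.coe_addLeft, add_sub_cancel_left, ← sub_sub, σ_iterate_add D i j]
  have hc := carry_assoc i j (h - i - j)
  rw [show j + (h - i - j) = h - i by abel] at hc
  calc a i * D.σ^[i.val] (b j) * D.y ^ carry i j * D.σ^[(i + j).val] (c (h - i - j))
          * D.y ^ carry (i + j) (h - i - j)
      = a i * D.σ^[i.val] (b j) * D.σ^[(i + j).val] (c (h - i - j))
          * (D.y ^ carry i j * D.y ^ carry (i + j) (h - i - j)) := by
        rw [mul_assoc (a i * D.σ^[i.val] (b j)) (D.y ^ carry i j), y_pow_comm]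
        simp only [mul_assoc]
    _ = _ := by
        rw [← pow_add, hc, pow_add]
        simp only [mul_assoc]

instance instRing : Ring (Cyc D) :=
  { (inferInstance : AddCommGroup (Cyc D)), (inferInstance : Mul (Cyc D)),
    (inferInstance : One (Cyc D)) with
    left_distrib := fun a b c => by
      ext l
      simp only [mul_apply, add_apply, ← Finset.sum_add_distrib]
      refine Finset.sum_congr rfl fun i _ => ?_
      rw [← add_mul, ← mul_add]
      congr 2
      induction i.val with
      | zero => rfl
      | succ n ih => simp only [Function.iterate_succ_apply', ih, map_add]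
    right_distrib := fun a b c => by
      ext l
      simp only [mul_apply, add_apply, add_mul, Finset.sum_add_distrib]
    zero_mul := fun a => by ext l; simp [mul_apply]
    mul_zero := fun a => by ext l; simp [mul_apply, σ_iterate_zero]
    mul_assoc := mul_assoc'
    one_mul := fun a => by
      ext l
      simp [mul_apply, one_def, carry_zero_left, ite_mul]
    mul_one := fun a => by
      ext l
      rw [mul_apply, Finset.sum_eq_single l]
      · simp [one_def, σ_iterate_one, carry_zero_right]
      · intro i _ hi
        simp [one_def, sub_eq_zero, Ne.symm hi, σ_iterate_zero]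
      · simp }

theorem e_mul_e (i j : ZMod M) (r s : R) :
    e D i r * e D j s = e D (i + j) (r * D.σ^[i.val] s * D.y ^ carry i j) := by
  ext l
  rw [mul_apply, Finset.sum_eq_single i]
  · by_cases hl : l = i + j
    · subst hl; simp
    · have : ¬ l - i = j := fun h => hl (by rw [← h]; abel)
      simp [hl, this, σ_iterate_zero]
  · intro k _ hk; simp [hk]
  · simp

/-- The coefficient ring inside the cyclic algebra. -/
def incl (D : CycData R M) : R →+* Cyc D where
  toFun r := e D 0 r
  map_one' := rfl
  map_mul' r s := by rw [e_mul_e]; simp [carry_zero_left]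
  map_zero' := by ext l; simp
  map_add' r s := by ext l; by_cases h : l = 0 <;> simp [h]

theorem incl_apply (r : R) : incl D r = e D 0 r := rfl

theorem incl_mul_apply (r : R) (a : Cyc D) (l : ZMod M) : (incl D r * a) l = r * a l := by
  simp [mul_apply, incl_apply, carry_zero_left, ite_mul]

theorem mul_incl_apply (r : R) (a : Cyc D) (l : ZMod M) :
    (a * incl D r) l = a l * D.σ^[l.val] r := by
  rw [mul_apply, Finset.sum_eq_single l]
  · simp [incl_apply, carry_zero_right]
  · intro i _ hi; simp [incl_apply, sub_eq_zero, Ne.symm hi, σ_iterate_zero]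
  · simp

theorem sum_e (a : Cyc D) : a = ∑ i, incl D (a i) * e D i 1 := by
  ext l
  have : ∀ (s : Finset (ZMod M)) (f : ZMod M → Cyc D), (∑ i ∈ s, f i) l = ∑ i ∈ s, f i l := by
    intro s f
    induction s using Finset.cons_induction with
    | empty => simp
    | cons i s hi ih => rw [Finset.sum_cons, add_apply, ih, Finset.sum_cons]
  rw [this, Finset.sum_eq_single l]
  · simp [incl_mul_apply]
  · intro i _ hi; simp [incl_mul_apply, Ne.symm hi]
  · simp

theorem e_eq_pow (n : ℕ) (hn : n < M) : (e D (n : ZMod M) 1) = (e D 1 1) ^ n := by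
  induction n with
  | zero => simp [one_def]
  | succ n ih =>
    rw [pow_succ, ← ih (by omega), e_mul_e, σ_iterate_one, one_mul, one_mul, Nat.cast_succ]
    congr 1
    have h1 : (n : ZMod M).val = n := by rw [ZMod.val_natCast, Nat.mod_eq_of_lt (by omega)]
    have h2 : (1 : ZMod M).val = 1 := by rw [ZMod.val_one_eq_one_mod, Nat.mod_eq_of_lt (by omega)]
    rw [carry, h1, h2, Nat.div_eq_of_lt (by omega), pow_zero]

theorem e_one_pow_eq (hM : 1 < M) : (e D 1 1) ^ M = incl D D.y := by
  obtain ⟨n, rfl⟩ : ∃ n, M = n + 1 := ⟨M - 1, by omega⟩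
  have h1 : (n : ZMod (n + 1)).val = n := by rw [ZMod.val_natCast, Nat.mod_eq_of_lt (by omega)]
  have h2 : (1 : ZMod (n + 1)).val = 1 := by
    rw [ZMod.val_one_eq_one_mod, Nat.mod_eq_of_lt hM]
  rw [pow_succ, ← e_eq_pow n (by omega), e_mul_e, σ_iterate_one, one_mul, one_mul, carry, h1, h2,
    Nat.div_self (by omega), pow_one, incl_apply]
  congr 1
  have := ZMod.natCast_self (n + 1)
  rwa [Nat.cast_succ] at this

section Algebra

variable {K : Type} [Field K] [Algebra K R] (hσ : ∀ a : K, D.σ (algebraMap K R a) = algebraMap K R a)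

include hσ in
theorem σ_iterate_algebraMap (n : ℕ) (a : K) : D.σ^[n] (algebraMap K R a) = algebraMap K R a :=
  Function.iterate_fixed (hσ a) n

/-- The cyclic algebra over fixed central scalars. -/
@[reducible] def algebra : Algebra K (Cyc D) :=
  ((incl D).comp (algebraMap K R)).toAlgebra' fun a x => by
    ext l
    rw [RingHom.comp_apply, incl_mul_apply, mul_incl_apply, σ_iterate_algebraMap hσ,
      Algebra.commutes]

end Algebra

end Cyc

end P199K.SymCon
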