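import Mathlib
import Vale.Agent.P199.Kurosh.Laurent

/-! Laurent series in a root `X = x^(1/M)` with coefficients in an algebra, over Laurent series in `x`. -/

noncomputable section

open Module

namespace P199K.SymCon

/-- Laurent series in `X`, regarded over Laurent series in `x = X ^ M`. -/
def Ram (_M : ℕ) (_F A : Type) [Ring A] : Type := LaurentSeries A

variable {M : ℕ} {F A : Type} [Field F] [Ring A] [Algebra F A]

instance : Ring (Ram M F A) := inferInstanceAs (Ring (LaurentSeries A))
instance [Nontrivial A] : Nontrivial (Ram M F A) := inferInstanceAs (Nontrivial (LaurentSeries A))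
instance [NoZeroDivisors A] : NoZeroDivisors (Ram M F A) :=
  inferInstanceAs (NoZeroDivisors (LaurentSeries A))

/-- Multiplication by `M` on exponents. -/
def mulHom (M : ℕ) : ℤ →+ ℤ := AddMonoidHom.mulLeft (M : ℤ)

theorem mulHom_injective [NeZero M] : Function.Injective (mulHom M) := fun a b h => by
  simpa [mulHom, NeZero.ne M] using h

theorem mulHom_le [NeZero M] (a b : ℤ) : mulHom M a ≤ mulHom M b ↔ a ≤ b := by
  have : (0 : ℤ) < M := by exact_mod_cast Nat.pos_of_ne_zero (NeZero.ne M)
  show (M : ℤ) * a ≤ M * b ↔ a ≤ b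
  exact ⟨fun h => le_of_mul_le_mul_left h this, fun h => mul_le_mul_of_nonneg_left h this.le⟩

variable [NeZero M]

/-- The scalars inside `Ram`: `a (x) ↦ a (X ^ M)`. -/
def ramMap (M : ℕ) [NeZero M] (F A : Type) [Field F] [Ring A] [Algebra F A] :
    LaurentSeries F →+* Ram M F A :=
  (HahnSeries.embDomainRingHom (mulHom M) mulHom_injective mulHom_le).comp
    (laurentMap (algebraMap F A))

theorem ramMap_coeff (a : LaurentSeries F) (d : ℤ) :
    HahnSeries.coeff (R := A) (ramMap M F A a) ((M : ℤ) * d) = algebraMap F A (a.coeff d) :=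
  HahnSeries.embDomain_coeff (a := d)

theorem ramMap_coeff_of_not_dvd (a : LaurentSeries F) {n : ℤ} (h : ¬(M : ℤ) ∣ n) :
    HahnSeries.coeff (R := A) (ramMap M F A a) n = 0 := by
  refine HahnSeries.embDomain_of_notMem_range ?_
  rintro ⟨d, rfl⟩
  exact h ⟨d, rfl⟩

theorem ramMap_comm (a : LaurentSeries F) (z : Ram M F A) :
    ramMap M F A a * z = z * ramMap M F A a := by
  have hc : ∀ n (u : A), HahnSeries.coeff (R := A) (ramMap M F A a) n * u =
      u * HahnSeries.coeff (R := A) (ramMap M F A a) n := fun n u => by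
    by_cases hn : (M : ℤ) ∣ n
    · obtain ⟨d, rfl⟩ := hn
      rw [ramMap_coeff, Algebra.commutes]
    · rw [ramMap_coeff_of_not_dvd a hn]
      simp
  refine HahnSeries.ext (funext fun n => ?_)
  refine (HahnSeries.coeff_mul (R := A)).trans (Eq.trans ?_ (HahnSeries.coeff_mul (R := A)).symm)
  refine Finset.sum_nbij' (fun p => (p.2, p.1)) (fun p => (p.2, p.1)) ?_ ?_ ?_ ?_ ?_ <;>
    simp_all [add_comm]

instance ramAlgebra : Algebra (LaurentSeries F) (Ram M F A) :=
  (ramMap M F A).toAlgebra' ramMap_comm

theorem ram_algebraMap (a : LaurentSeries F) :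
    algebraMap (LaurentSeries F) (Ram M F A) a = ramMap M F A a := rfl

/-- The monomial `c X ^ n`. -/
def mono (M : ℕ) (F : Type) (n : ℤ) (c : A) : Ram M F A := HahnSeries.single n c

theorem ramMap_mul_mono_coeff (a : LaurentSeries F) (i j : Fin M) (c : A) (d : ℤ) :
    HahnSeries.coeff (R := A) (ramMap M F A a * mono M F (i : ℤ) c) ((M : ℤ) * d + (j : ℤ)) =
      if i = j then algebraMap F A (a.coeff d) * c else 0 := by
  have e := HahnSeries.coeff_mul_single_add (r := c) (x := (ramMap M F A a : LaurentSeries A))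
    (a := (M : ℤ) * d + (j : ℤ) - (i : ℤ)) (b := (i : ℤ))
  rw [sub_add_cancel] at e
  refine e.trans ?_
  split_ifs with h
  · subst h
    rw [add_sub_cancel_right, ramMap_coeff]
  · rw [ramMap_coeff_of_not_dvd a, zero_mul]
    rintro ⟨k, hk⟩
    refine h (Fin.ext ?_)
    have hi := i.2
    have hj := j.2
    have hdiv : (M : ℤ) ∣ (j : ℤ) - i := ⟨k - d, by linear_combination hk⟩
    have : (j : ℤ) - i = 0 := Int.eq_zero_of_abs_lt_dvd hdiv (abs_lt.2 (by omega))
    omega

variable {κ : Type} [Fintype κ]

/-- Coordinates of `Ram` for a basis of the coefficient algebra. -/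
def combine (M : ℕ) [NeZero M] (b : Basis κ F A) :
    (Fin M × κ → LaurentSeries F) →ₗ[LaurentSeries F] Ram M F A :=
  Fintype.linearCombination (LaurentSeries F) fun p => mono M F (p.1 : ℤ) (b p.2)

theorem combine_coeff (b : Basis κ F A) (f : Fin M × κ → LaurentSeries F) (j : Fin M) (d : ℤ) :
    HahnSeries.coeff (R := A) (combine M b f) ((M : ℤ) * d + (j : ℤ)) =
      ∑ k, (f (j, k)).coeff d • b k := by
  rw [combine, Fintype.linearCombination_apply]
  refine (HahnSeries.coeff_sum (R := A) _).trans ?_
  simp only [Fintype.sum_prod_type]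
  rw [Finset.sum_eq_single j]
  · refine Finset.sum_congr rfl fun k _ => ?_
    rw [Algebra.smul_def, ram_algebraMap, ramMap_mul_mono_coeff, if_pos rfl, Algebra.smul_def]
  · intro i _ hi
    refine Finset.sum_eq_zero fun k _ => ?_
    rw [Algebra.smul_def, ram_algebraMap, ramMap_mul_mono_coeff, if_neg hi]
  · simp

theorem int_decomp (n : ℤ) : ∃ (d : ℤ) (j : Fin M), n = (M : ℤ) * d + (j : ℤ) := by
  have hM : (0 : ℤ) < M := by exact_mod_cast Nat.pos_of_ne_zero (NeZero.ne M)
  have h1 := Int.emod_nonneg n hM.ne'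
  have h2 := Int.emod_lt_of_pos n hM
  refine ⟨n / M, ⟨(n % M).toNat, by omega⟩, ?_⟩
  have := Int.ediv_mul_add_emod n M
  simp only
  rw [Int.toNat_of_nonneg h1]
  linarith

theorem combine_injective (b : Basis κ F A) : Function.Injective (combine M b) := by
  intro f g h
  funext ⟨j, k⟩
  ext d
  have e := combine_coeff b f j d
  rw [h, combine_coeff b g j d] at e
  have := congrArg (fun z => b.repr z k) e
  simp only [Basis.repr_sum_self] at this
  exact this.symm

theorem combine_surjective (b : Basis κ F A) : Function.Surjective (combine M b) := by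
  intro z
  have hM : (0 : ℤ) < M := by exact_mod_cast Nat.pos_of_ne_zero (NeZero.ne M)
  have hbdd : ∀ p : Fin M × κ, BddBelow (Function.support fun d : ℤ =>
      b.repr (HahnSeries.coeff (R := A) z ((M : ℤ) * d + (p.1 : ℤ))) p.2) := by
    intro p
    refine ⟨min 0 ((HahnSeries.order (R := A) z - (p.1 : ℤ)) / M), fun d hd => ?_⟩
    have hne : HahnSeries.coeff (R := A) z ((M : ℤ) * d + (p.1 : ℤ)) ≠ 0 := fun e => hd (by simp [e])
    have := HahnSeries.order_le_of_coeff_ne_zero hne
    refine min_le_of_right_le ((Int.ediv_le_iff_le_mul hM).2 ?_)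
    nlinarith
  refine ⟨fun p => HahnSeries.ofSuppBddBelow _ (hbdd p), HahnSeries.ext (funext fun n => ?_)⟩
  obtain ⟨d, j, rfl⟩ := int_decomp (M := M) n
  rw [combine_coeff]
  simp only [HahnSeries.coeff_ofSuppBddBelow, Basis.sum_repr]

/-- The monomials `b k X ^ i`, `i < M`, form a basis. -/
def ramBasis (b : Basis κ F A) : Basis (Fin M × κ) (LaurentSeries F) (Ram M F A) :=
  Basis.ofEquivFun
    (LinearEquiv.ofBijective (combine M b) ⟨combine_injective b, combine_surjective b⟩).symm

theorem ramBasis_apply (b : Basis κ F A) (p : Fin M × κ) :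
    ramBasis b p = mono M F (p.1 : ℤ) (b p.2) := by
  classical
  rw [ramBasis, Basis.coe_ofEquivFun, LinearEquiv.symm_symm]
  show combine M b (Pi.single p 1) = _
  rw [combine, Fintype.linearCombination_apply_single, one_smul]

instance ram_finite [FiniteDimensional F A] : FiniteDimensional (LaurentSeries F) (Ram M F A) :=
  Module.Finite.of_basis (ramBasis (Module.finBasis F A))

theorem ram_finrank [FiniteDimensional F A] :
    finrank (LaurentSeries F) (Ram M F A) = M * finrank F A := by
  rw [finrank_eq_card_basis (ramBasis (Module.finBasis F A)), Fintype.card_prod, Fintype.card_fin,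
    Fintype.card_fin]

end P199K.SymCon
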