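import Mathlib
import Vale.Agent.P199.Kurosh.Symbol.Ram
import Vale.Agent.P199.Kurosh.Symbol.Cyclic

/-! Cyclic algebras over Laurent series whose `Y ^ M` is the series variable are domains. -/

noncomputable section

open Module Finset

namespace P199K.SymCon

variable {F A : Type} [Field F] [Ring A] [Algebra F A] {M : ℕ} [NeZero M]

/-- The cyclic datum on `A((y))` of an automorphism of `A`. -/
def laurentCyc (M : ℕ) [NeZero M] (s : A →+* A) (hs : ∀ a, s^[M] a = a) :
    CycData (Ram 1 F A) M where
  σ := laurentMap s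
  y := HahnSeries.single 1 1
  y_comm r := HahnSeries.ext (funext fun n => by
    have h1 := HahnSeries.coeff_single_mul_add (r := (1 : A)) (x := (r : LaurentSeries A))
      (a := n - 1) (b := 1)
    have h2 := HahnSeries.coeff_mul_single_add (r := (1 : A)) (x := (r : LaurentSeries A))
      (a := n - 1) (b := 1)
    rw [sub_add_cancel, one_mul] at h1
    rw [sub_add_cancel, mul_one] at h2
    exact h1.trans h2.symm)
  σ_y := HahnSeries.ext (funext fun n => by
    show s ((HahnSeries.single (1 : ℤ) (1 : A)).coeff n) = (HahnSeries.single (1 : ℤ) (1 : A)).coeff n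
    by_cases h : n = 1 <;> simp [h])
  σ_pow r := HahnSeries.ext (funext fun n => by
    have : ∀ (k : ℕ) (x : LaurentSeries A),
        ((laurentMap s)^[k] x).coeff n = s^[k] (x.coeff n) := by
      intro k x
      induction k with
      | zero => rfl
      | succ k ih =>
        rw [Function.iterate_succ_apply', Function.iterate_succ_apply', laurentMap_coeff, ih]
    exact (this M r).trans (hs _))

theorem laurentCyc_coeff (s : A →+* A) (hs : ∀ a, s^[M] a = a) (k : ℕ) (r : Ram 1 F A) (n : ℤ) :
    HahnSeries.coeff (R := A) ((laurentCyc (F := F) M s hs).σ^[k] r) n =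
      s^[k] (HahnSeries.coeff (R := A) r n) := by
  induction k with
  | zero => rfl
  | succ k ih =>
    rw [Function.iterate_succ_apply', Function.iterate_succ_apply', ← ih]
    rfl

theorem coeff_mul_eq_zero_of_lt {x z : LaurentSeries A} {m n t : ℤ} (hx : ∀ i < m, x.coeff i = 0)
    (hz : ∀ j < n, z.coeff j = 0) (h : t < m + n) : (x * z).coeff t = 0 := by
  rw [HahnSeries.coeff_mul]
  refine Finset.sum_eq_zero fun ij hij => ?_
  simp only [Finset.mem_antidiagonal, HahnSeries.mem_support] at hij
  have h1 : m ≤ ij.1 := not_lt.1 fun h' => hij.1 (hx _ h')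
  have h2 : n ≤ ij.2 := not_lt.1 fun h' => hij.2.1 (hz _ h')
  omega

theorem coeff_mul_lowest {x z : LaurentSeries A} {m n : ℤ} (hx : ∀ i < m, x.coeff i = 0)
    (hz : ∀ j < n, z.coeff j = 0) : (x * z).coeff (m + n) = x.coeff m * z.coeff n := by
  rw [HahnSeries.coeff_mul, Finset.sum_eq_single (m, n)]
  · intro ij hij hne
    simp only [Finset.mem_antidiagonal, HahnSeries.mem_support] at hij
    have h1 : m ≤ ij.1 := not_lt.1 fun h' => hij.1 (hx _ h')
    have h2 : n ≤ ij.2 := not_lt.1 fun h' => hij.2.1 (hz _ h')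
    exact absurd (Prod.ext (by omega) (by omega)) hne
  · intro hmn
    by_contra hne
    refine hmn ?_
    simp only [Finset.mem_antidiagonal, HahnSeries.mem_support]
    exact ⟨fun h => hne (by rw [h, zero_mul]), fun h => hne (by rw [h, mul_zero]), trivial⟩

theorem laurentCyc_noZeroDivisors [NoZeroDivisors A] [Nontrivial A] (s : A →+* A)
    (hs : ∀ a, s^[M] a = a) : NoZeroDivisors (Cyc (laurentCyc (F := F) M s hs)) := by
  classical
  set D := laurentCyc (F := F) M s hs
  refine ⟨fun {a b} hab => ?_⟩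
  by_contra hne
  obtain ⟨ha, hb⟩ := not_or.1 hne
  have lead : ∀ a : Cyc D, a ≠ 0 → ∃ i, a i ≠ 0 ∧ ∀ j, a j ≠ 0 →
      (M : ℤ) * HahnSeries.order (R := A) (a i) + i.val ≤
        (M : ℤ) * HahnSeries.order (R := A) (a j) + j.val := by
    intro a ha
    have hs : (univ.filter fun i => a i ≠ 0).Nonempty := by
      by_contra h
      refine ha (Cyc.ext fun i => ?_)
      by_contra hi
      exact h ⟨i, Finset.mem_filter.2 ⟨Finset.mem_univ i, hi⟩⟩
    obtain ⟨i, hi, hmin⟩ := Finset.exists_min_image _
      (fun i => (M : ℤ) * HahnSeries.order (R := A) (a i) + i.val) hs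
    exact ⟨i, (Finset.mem_filter.1 hi).2, fun j hj =>
      hmin j (Finset.mem_filter.2 ⟨Finset.mem_univ j, hj⟩)⟩
  obtain ⟨i₀, hi₀, hmina⟩ := lead a ha
  obtain ⟨j₀, hj₀, hminb⟩ := lead b hb
  set m := HahnSeries.order (R := A) (a i₀)
  set n := HahnSeries.order (R := A) (b j₀)
  set t : ℤ := m + n + Cyc.carry i₀ j₀
  have e := congrArg (fun z : Cyc D => HahnSeries.coeff (R := A) (z (i₀ + j₀)) t) hab
  simp only [Cyc.mul_apply, Cyc.zero_apply] at e
  have hlow : ∀ (r : Ram 1 F A) (k : ℤ), k < HahnSeries.order (R := A) r →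
      HahnSeries.coeff (R := A) r k = 0 := fun r k h => HahnSeries.coeff_eq_zero_of_lt_order h
  have hσ : ∀ (c : ℕ) (r : Ram 1 F A) (k : ℤ), k < HahnSeries.order (R := A) r →
      HahnSeries.coeff (R := A) (D.σ^[c] r) k = 0 := fun c r k h => by
    rw [laurentCyc_coeff, hlow r k h, Function.iterate_fixed (map_zero s)]
  have hy : ∀ (c : ℕ) (r : Ram 1 F A) (k : ℤ),
      HahnSeries.coeff (R := A) (r * D.y ^ c) k = HahnSeries.coeff (R := A) r (k - c) := by
    intro c r k
    have hp : (D.y : LaurentSeries A) ^ c = HahnSeries.single (c : ℤ) 1 := by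
      show (HahnSeries.single (1 : ℤ) (1 : A)) ^ c = _
      rw [HahnSeries.single_pow, one_pow, nsmul_one]
    show HahnSeries.coeff (R := A) ((r : LaurentSeries A) * (D.y : LaurentSeries A) ^ c) k = _
    rw [hp]
    have := HahnSeries.coeff_mul_single_add (r := (1 : A)) (x := (r : LaurentSeries A))
      (a := k - c) (b := (c : ℤ))
    rwa [sub_add_cancel, mul_one] at this
  have e' : HahnSeries.coeff (R := A)
      (a i₀ * D.σ^[i₀.val] (b (i₀ + j₀ - i₀)) * D.y ^ Cyc.carry i₀ (i₀ + j₀ - i₀)) t = 0 := by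
    refine Eq.trans ?_ (e.trans rfl)
    symm
    refine (HahnSeries.coeff_sum (R := A) _).trans (Finset.sum_eq_single i₀ (fun i _ hi => ?_)
      (fun h => absurd (Finset.mem_univ _) h))
    rw [hy]
    by_cases hai : a i = 0
    · rw [hai, zero_mul]
      rfl
    by_cases hbj : b (i₀ + j₀ - i) = 0
    · rw [hbj, Cyc.σ_iterate_zero, mul_zero]
      rfl
    refine coeff_mul_eq_zero_of_lt (hlow _) (hσ _ _) ?_
    have h1 := hmina i hai
    have h2 := hminb _ hbj
    have h3 := Cyc.val_add_carry i (i₀ + j₀ - i)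
    have h4 := Cyc.val_add_carry i₀ j₀
    rw [add_sub_cancel] at h3
    have h5 : (M : ℤ) * HahnSeries.order (R := A) (a i) + i.val ≠
        (M : ℤ) * m + i₀.val := by
      intro h5
      refine hi (ZMod.val_injective M ?_)
      have hb1 := i.val_lt
      have hb2 := i₀.val_lt
      have hdiv : (M : ℤ) ∣ (i.val : ℤ) - i₀.val :=
        ⟨m - HahnSeries.order (R := A) (a i), by linear_combination h5⟩
      have := Int.eq_zero_of_abs_lt_dvd hdiv (abs_lt.2 (by omega))
      omega
    have hM : (0 : ℤ) < M := by exact_mod_cast Nat.pos_of_ne_zero (NeZero.ne M)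
    have hlt : (M : ℤ) * (m + n + Cyc.carry i₀ j₀) <
        M * (HahnSeries.order (R := A) (a i) + HahnSeries.order (R := A) (b (i₀ + j₀ - i))
          + Cyc.carry i (i₀ + j₀ - i)) := by
      rw [mul_add, mul_add, mul_add, mul_add]
      zify at h3 h4
      omega
    have := lt_of_mul_lt_mul_left hlt hM.le
    simp only [t]
    omega
  rw [add_sub_cancel_left, hy, show t - (Cyc.carry i₀ j₀ : ℕ) = m + n by simp [t]] at e'
  have := (coeff_mul_lowest (x := (a i₀ : LaurentSeries A))
    (z := (D.σ^[i₀.val] (b j₀) : LaurentSeries A)) (hlow _) (hσ _ _)).symm.trans e'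
  rcases mul_eq_zero.1 this with h | h
  · exact HahnSeries.coeff_order_eq_zero.not.2 hi₀ h
  · rw [laurentCyc_coeff] at h
    refine HahnSeries.coeff_order_eq_zero.not.2 hj₀ ?_
    have hinj : ∀ u, s^[i₀.val] u = 0 → u = 0 := fun u hu => by
      have := congrArg (fun z => s^[M - i₀.val] z) hu
      simp only [← Function.iterate_add_apply, Nat.sub_add_cancel i₀.val_lt.le, hs,
        Function.iterate_fixed (map_zero s)] at this
      exact this
    exact hinj _ h

end P199K.SymCon
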